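import Crest.Agent.Lib.SRC.ChainBasic
import Crest.Agent.Lib.SRC.Split

/-!
Label calculus for the i.i.d. labels (helper7): resampling one coordinate, integrating out one
coordinate, joint measurability of the combinatorial functionals of the labels.
-/

open MeasureTheory Measure
open Crest.ProbabilityR.Labels Crest.Agent.SRC.Split

namespace Crest.Agent.SRC.LC

set_option linter.unusedSectionVars false
set_option linter.unusedSimpArgs false

local notation "I" => unitInterval

variable {E : Type*} [DecidableEq E]

theorem measurable_update_pair (e : E) :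
    Measurable (fun p : (E → I) × I => Function.update p.1 e p.2) := by
  refine measurable_pi_iff.2 fun i => ?_
  by_cases h : i = e
  · subst h
    simpa using measurable_snd
  · have h2 : Measurable fun p : (E → I) × I => p.1 i := (measurable_pi_apply i).comp measurable_fst
    simpa [Function.update_of_ne h] using h2

/-- Resampling a coordinate preserves the label measure. -/
theorem resample_law (e : E) :
    ((labelMeasure E).prod (volume : Measure I)).map (fun p => Function.update p.1 e p.2) =
      labelMeasure E := by
  refine eq_infinitePi _ fun s A hA => ?_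
  have hbox : MeasurableSet (Set.pi (↑s) A) := MeasurableSet.pi s.countable_toSet fun i _ => hA i
  rw [Measure.map_apply (measurable_update_pair e) hbox]
  by_cases he : e ∈ s
  · have hset : (fun p : (E → I) × I => Function.update p.1 e p.2) ⁻¹' Set.pi (↑s) A =
        (Set.pi (↑(s.erase e)) A) ×ˢ (A e) := by
      ext ⟨t, x⟩
      simp only [Set.mem_preimage, Set.mem_pi, Finset.mem_coe, Set.mem_prod, Finset.mem_erase]
      constructor
      · intro h
        refine ⟨fun i hi => ?_, ?_⟩
        · have := h i hi.2
          rwa [Function.update_of_ne hi.1] at this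
        · have := h e he
          rwa [Function.update_self] at this
      · rintro ⟨h1, h2⟩ i hi
        by_cases hie : i = e
        · subst hie; simpa using h2
        · rw [Function.update_of_ne hie]; exact h1 i ⟨hie, hi⟩
    rw [hset, Measure.prod_prod, labelMeasure_pi _ _ (fun i _ => hA i), mul_comm]
    exact Finset.mul_prod_erase s (fun i => volume (A i)) he
  · have hne : ∀ i ∈ s, i ≠ e := fun i hi h => he (h ▸ hi)
    have hset : (fun p : (E → I) × I => Function.update p.1 e p.2) ⁻¹' Set.pi (↑s) A =
        (Set.pi (↑s) A) ×ˢ Set.univ := by
      ext ⟨t, x⟩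
      simp only [Set.mem_preimage, Set.mem_pi, Finset.mem_coe, Set.mem_prod, Set.mem_univ, and_true]
      constructor
      · intro h i hi
        have := h i hi
        rwa [Function.update_of_ne (hne i hi)] at this
      · intro h i hi
        rw [Function.update_of_ne (hne i hi)]
        exact h i hi
    rw [hset, Measure.prod_prod, labelMeasure_pi _ _ (fun i _ => hA i)]
    simp

theorem mp_resample (e : E) : MeasurePreserving (fun p : (E → I) × I => Function.update p.1 e p.2)
    ((labelMeasure E).prod (volume : Measure I)) (labelMeasure E) :=
  ⟨measurable_update_pair e, resample_law e⟩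

/-- Resampling formula for nonnegative functions. -/
theorem lintegral_resample (e : E) {φ : (E → I) → ENNReal} (hφ : Measurable φ) :
    ∫⁻ t, φ t ∂(labelMeasure E) =
      ∫⁻ t, ∫⁻ x, φ (Function.update t e x) ∂(volume : Measure I) ∂(labelMeasure E) := by
  conv_lhs => rw [← resample_law e]
  rw [lintegral_map hφ (measurable_update_pair e),
    lintegral_prod (fun p : (E → I) × I => φ (Function.update p.1 e p.2))
      (hφ.comp (measurable_update_pair e)).aemeasurable]

theorem integrable_update (e : E) {φ : (E → I) → ℝ} (hφ : Integrable φ (labelMeasure E)) :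
    Integrable (fun p : (E → I) × I => φ (Function.update p.1 e p.2))
      ((labelMeasure E).prod (volume : Measure I)) := by
  have hint : Integrable φ (((labelMeasure E).prod (volume : Measure I)).map
      (fun p => Function.update p.1 e p.2)) := by rwa [resample_law]
  exact hint.comp_measurable (measurable_update_pair e)

/-- Resampling formula for integrable functions. -/
theorem integral_resample (e : E) {φ : (E → I) → ℝ} (hφ : Integrable φ (labelMeasure E)) :
    ∫ t, φ t ∂(labelMeasure E) =
      ∫ t, ∫ x, φ (Function.update t e x) ∂(volume : Measure I) ∂(labelMeasure E) := by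
  have hint : Integrable φ (((labelMeasure E).prod (volume : Measure I)).map
      (fun p => Function.update p.1 e p.2)) := by rwa [resample_law]
  conv_lhs => rw [← resample_law e]
  rw [integral_map (measurable_update_pair e).aemeasurable hint.aestronglyMeasurable]
  exact integral_prod (fun p : (E → I) × I => φ (Function.update p.1 e p.2))
    (integrable_update e hφ)

/-- `φ` does not depend on the coordinate `e`. -/
def IndepOf {β : Type*} (φ : (E → I) → β) (e : E) : Prop :=
  ∀ t x, φ (Function.update t e x) = φ t

theorem volume_I_real_univ : (volume : Measure I).real Set.univ = 1 := by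
  simp [Measure.real]

/-- Label trick: a function not depending on `e` is independent of the coordinate `e`. -/
theorem lintegral_indep_mul {e : E} {φ : (E → I) → ENNReal} (hφ : Measurable φ) (hi : IndepOf φ e)
    {A : Set I} (hA : MeasurableSet A) :
    ∫⁻ t, A.indicator 1 (t e) * φ t ∂(labelMeasure E) =
      volume A * ∫⁻ t, φ t ∂(labelMeasure E) := by
  have hm : Measurable fun t : E → I => A.indicator (1 : I → ENNReal) (t e) * φ t :=
    ((measurable_one.indicator hA).comp (measurable_pi_apply e)).mul hφ
  rw [lintegral_resample e hm, ← lintegral_const_mul _ hφ]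
  refine lintegral_congr fun t => ?_
  simp only [Function.update_self, hi t]
  rw [lintegral_mul_const _ (measurable_one.indicator hA)]
  rw [lintegral_indicator hA]
  simp

/-- Label trick for real functions. -/
theorem integral_indep_mul {e : E} {φ : (E → I) → ℝ} (hφ : Integrable φ (labelMeasure E))
    (hi : IndepOf φ e) {A : Set I} (hA : MeasurableSet A) :
    ∫ t, A.indicator 1 (t e) * φ t ∂(labelMeasure E) =
      (volume A).toReal * ∫ t, φ t ∂(labelMeasure E) := by
  have hbdd : Integrable (fun t : E → I => A.indicator (1 : I → ℝ) (t e) * φ t) (labelMeasure E) := by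
    refine hφ.bdd_mul (c := 1) ?_ ?_
    · exact ((measurable_one.indicator hA).comp (measurable_pi_apply e)).aestronglyMeasurable
    · filter_upwards with t
      by_cases h : t e ∈ A <;> simp [Set.indicator, h]
  rw [integral_resample e hbdd, ← integral_const_mul]
  refine integral_congr_ae (ae_of_all _ fun t => ?_)
  simp only [Function.update_self, hi t]
  rw [integral_mul_const, integral_indicator hA]
  simp [Measure.real]

/-- Integrating out the coordinate `h` of a function depending on it only through an
explicit argument. -/
theorem lintegral_fubini_label {h : E} {Φ : I → (E → I) → ENNReal}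
    (hΦ : Measurable (Function.uncurry Φ)) (hi : ∀ x, IndepOf (Φ x) h)
    {A : Set I} (hA : MeasurableSet A) :
    ∫⁻ t, A.indicator 1 (t h) * Φ (t h) t ∂(labelMeasure E) =
      ∫⁻ x in A, ∫⁻ t, Φ x t ∂(labelMeasure E) ∂(volume : Measure I) := by
  have hm : Measurable fun t : E → I => A.indicator (1 : I → ENNReal) (t h) * Φ (t h) t := by
    refine ((measurable_one.indicator hA).comp (measurable_pi_apply h)).mul ?_
    have hpair : Measurable fun t : E → I => (t h, t) := (measurable_pi_apply h).prodMk measurable_id
    exact hΦ.comp hpair
  rw [lintegral_resample h hm]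
  have hinner : ∀ t : E → I, ∫⁻ x, A.indicator 1 (Function.update t h x h) *
      Φ (Function.update t h x h) (Function.update t h x) ∂(volume : Measure I) =
      ∫⁻ x in A, Φ x t ∂(volume : Measure I) := by
    intro t
    rw [← lintegral_indicator hA]
    refine lintegral_congr fun x => ?_
    simp only [Function.update_self, hi x t]
    by_cases hx : x ∈ A <;> simp [Set.indicator, hx]
  simp_rw [hinner]
  rw [lintegral_lintegral_swap]
  exact (hΦ.comp measurable_swap).aemeasurable

/-- Integrability of bounded measurable functions. -/
theorem integrable_of_bdd {α : Type*} [MeasurableSpace α] {μ : Measure α} [IsProbabilityMeasure μ]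
    {f : α → ℝ} (hf : Measurable f) {C : ℝ} (hC : ∀ a, |f a| ≤ C) : Integrable f μ :=
  Integrable.of_bound hf.aestronglyMeasurable C (ae_of_all _ fun a => by simpa using hC a)

/-- Integrating out the coordinate `h`, real version for bounded functions. -/
theorem integral_fubini_label {h : E} {Φ : I → (E → I) → ℝ}
    (hΦ : Measurable (Function.uncurry Φ)) {C : ℝ} (hC : ∀ x t, |Φ x t| ≤ C)
    (hi : ∀ x, IndepOf (Φ x) h) {A : Set I} (hA : MeasurableSet A) :
    ∫ t, A.indicator 1 (t h) * Φ (t h) t ∂(labelMeasure E) =
      ∫ x in A, ∫ t, Φ x t ∂(labelMeasure E) ∂(volume : Measure I) := by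
  have hC0 : 0 ≤ C := (abs_nonneg _).trans (hC 0 (fun _ => 0))
  have hpair : Measurable fun t : E → I => (t h, t) := (measurable_pi_apply h).prodMk measurable_id
  have hm : Measurable fun t : E → I => A.indicator (1 : I → ℝ) (t h) * Φ (t h) t :=
    ((measurable_one.indicator hA).comp (measurable_pi_apply h)).mul (hΦ.comp hpair)
  have hb : ∀ t : E → I, |A.indicator (1 : I → ℝ) (t h) * Φ (t h) t| ≤ C := by
    intro t
    by_cases hx : t h ∈ A
    · simpa [Set.indicator, hx] using hC _ _
    · simpa [Set.indicator, hx] using hC0
  rw [integral_resample h (integrable_of_bdd hm hb)]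
  have hinner : ∀ t : E → I, ∫ x, A.indicator (1 : I → ℝ) (Function.update t h x h) *
      Φ (Function.update t h x h) (Function.update t h x) ∂(volume : Measure I) =
      ∫ x in A, Φ x t ∂(volume : Measure I) := by
    intro t
    rw [← integral_indicator hA]
    refine integral_congr_ae (ae_of_all _ fun x => ?_)
    simp only [Function.update_self, hi x t]
    by_cases hx : x ∈ A <;> simp [Set.indicator, hx]
  simp_rw [hinner]
  have hint : Integrable (Function.uncurry Φ) ((volume : Measure I).restrict A |>.prod (labelMeasure E)) := by
    refine Integrable.of_bound hΦ.aestronglyMeasurable C (ae_of_all _ fun a => ?_)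
    have := hC a.1 a.2
    simpa [Function.uncurry] using this
  exact (integral_integral_swap (f := fun x t => Φ x t) hint).symm

/-! ### Measurable fibres -/

section Fibers

variable {Ω : Type*} [MeasurableSpace Ω]

/-- A map into a countable type with measurable fibres: post-composition is measurable. -/
theorem measurable_of_fibers {β γ : Type*} [Countable β] [MeasurableSpace γ] {h : Ω → β}
    (hh : ∀ b, MeasurableSet {ω | h ω = b}) (g : β → γ) : Measurable fun ω => g (h ω) :=
  measurable_cases h hh (fun b _ => g b) (fun _ => measurable_const)

theorem fibers_pair {β β' : Type*} [Countable β] [Countable β'] {h : Ω → β} {h' : Ω → β'}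
    (hh : ∀ b, MeasurableSet {ω | h ω = b}) (hh' : ∀ b, MeasurableSet {ω | h' ω = b})
    (b : β × β') : MeasurableSet {ω | (h ω, h' ω) = b} := by
  have : {ω | (h ω, h' ω) = b} = {ω | h ω = b.1} ∩ {ω | h' ω = b.2} := by
    ext ω
    simp [Prod.ext_iff]
  rw [this]
  exact (hh _).inter (hh' _)

/-- Fibres of a function of a map with measurable fibres. -/
theorem fibers_comp {β β' : Type*} [Countable β] {h : Ω → β}
    (hh : ∀ b, MeasurableSet {ω | h ω = b}) (g : β → β') (b' : β') :
    MeasurableSet {ω | g (h ω) = b'} := by
  have : {ω | g (h ω) = b'} = ⋃ b ∈ {b | g b = b'}, {ω | h ω = b} := by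
    ext ω
    simp
  rw [this]
  exact MeasurableSet.biUnion (Set.to_countable _) fun b _ => hh b

/-- Fibres of a filter by measurable predicates. -/
theorem fibers_filter (F : Finset E) (p : Ω → E → Prop) [∀ ω, DecidablePred (p ω)]
    (hp : ∀ e, MeasurableSet {ω | p ω e}) (Z : Finset E) :
    MeasurableSet {ω | F.filter (p ω) = Z} := by
  by_cases hZ : Z ⊆ F
  · have : {ω | F.filter (p ω) = Z} = ⋂ e ∈ F, {ω | ω ∈ {ω | p ω e} ↔ e ∈ Z} := by
      ext ω
      simp only [Set.mem_ofPred_eq, Set.mem_iInter]
      constructor
      · rintro rfl e he
        simp [he]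
      · intro h
        ext e
        simp only [Finset.mem_filter]
        constructor
        · rintro ⟨he, hpe⟩; exact (h e he).1 hpe
        · intro he; exact ⟨hZ he, (h e (hZ he)).2 he⟩
    rw [this]
    exact MeasurableSet.biInter (Finset.countable_toSet _) fun e _ => measurableSet_iff_const (hp e) _
  · have : {ω | F.filter (p ω) = Z} = ∅ := by
      ext ω
      simp only [Set.mem_ofPred_eq, Set.mem_empty_iff_false, iff_false]
      rintro rfl
      exact hZ (Finset.filter_subset _ _)
    rw [this]
    exact MeasurableSet.empty

variable [Countable E]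

/-- Fibres of the sorted list of a fixed finite set. -/
theorem fibers_sortedL {t : Ω → E → I} (ht : ∀ e, Measurable fun ω => t ω e) (Z : Finset E)
    (l : List E) : MeasurableSet {ω | sortedL (t ω) Z = l} := by
  have : {ω | sortedL (t ω) Z = l} = (fun ω => srt (cmpRel (t ω) Z) Z) ⁻¹' {l} := rfl
  rw [this]
  exact fibers_comp (h := fun ω => cmpRel (t ω) Z) (measurableSet_cmpRel_eq ht Z) (fun R => srt R Z) l

/-- Fibres of the sorted list of a random finite set with measurable fibres. -/
theorem fibers_sortedL' {t : Ω → E → I} (ht : ∀ e, Measurable fun ω => t ω e) {Z : Ω → Finset E}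
    (hZ : ∀ z, MeasurableSet {ω | Z ω = z}) (l : List E) :
    MeasurableSet {ω | sortedL (t ω) (Z ω) = l} := by
  have : {ω | sortedL (t ω) (Z ω) = l} =
      ⋃ z : Finset E, {ω | Z ω = z} ∩ {ω | sortedL (t ω) z = l} := by
    ext ω
    simp only [Set.mem_ofPred_eq, Set.mem_iUnion, Set.mem_inter_iff, exists_eq_left']
  rw [this]
  exact MeasurableSet.iUnion fun z => (hZ z).inter (fibers_sortedL ht z l)

end Fibers

end Crest.Agent.SRC.LC
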