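import Crest.Agent.Lib.SRC.Defs
import Crest.Agent.Lib.SRCore

/-!
Package B of rows S0254/S0255: a mass system given by a strongly Rayleigh law satisfies `NC` and `ROW`.
-/

open MeasureTheory Crest.ProbabilityR.StronglyRayleigh

namespace Crest.Agent.SRC

variable {E : Type*} [DecidableEq E]

lemma m_eq_zero_of_not_disjoint (M : MassSys E) {ν : Measure (E → Bool)} 
    (hM : ∀ P Q, M.m P Q = (ν {ω | (∀ i ∈ P, ω i = true) ∧ ∀ i ∈ Q, ω i = false}).toReal)
    {P Q : Finset E} (h : ¬ Disjoint P Q) : M.m P Q = 0 := by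
  rw [hM]
  obtain ⟨i, h1, h2⟩ := Finset.not_disjoint_iff.mp h
  have : {ω : E → Bool | (∀ i ∈ P, ω i = true) ∧ ∀ i ∈ Q, ω i = false} = ∅ := by
    ext ω
    simp only [Set.mem_ofPred_eq, Set.mem_empty_iff_false, iff_false, not_and]
    intro h3 h4
    have h5 := h3 i h1
    rw [h4 i h2] at h5
    simp at h5
  rw [this]
  simp

/-- A mass system coming from a strongly Rayleigh law satisfies `NC`. -/
theorem nc_of_sr (M : MassSys E) {ν : Measure (E → Bool)} [IsFiniteMeasure ν]
    (hM : ∀ P Q, M.m P Q = (ν {ω | (∀ i ∈ P, ω i = true) ∧ ∀ i ∈ Q, ω i = false}).toReal)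
    (hsr : IsStronglyRayleigh ν) : M.NC := by
  intro P Q f g hfg hfP _ hgP hgQ
  have hmass : ∀ A B, M.m A B = SRCore.mass ν A B := fun A B => hM A B
  by_cases hd : Disjoint P Q
  · simp only [hmass]
    exact SRCore.mass_nc hsr hd hfP hgP hgQ hfg
  · rw [m_eq_zero_of_not_disjoint M hM hd, mul_zero]
    exact mul_nonneg (M.nonneg _ _) (M.nonneg _ _)

/-- A mass system coming from a strongly Rayleigh law satisfies `ROW`. -/
theorem row_of_sr (M : MassSys E) {ν : Measure (E → Bool)} [IsFiniteMeasure ν]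
    (hM : ∀ P Q, M.m P Q = (ν {ω | (∀ i ∈ P, ω i = true) ∧ ∀ i ∈ Q, ω i = false}).toReal)
    (hsr : IsStronglyRayleigh ν) : M.ROW := by
  intro P Q g J hgJ hgP hgQ hJP hJQ
  have hmass : ∀ A B, M.m A B = SRCore.mass ν A B := fun A B => hM A B
  by_cases hd : Disjoint P Q
  · have hrow := SRCore.mass_row hsr hd hJP.symm hgP hgQ hgJ
    simp only [hmass]
    refine le_trans (Finset.sum_le_sum fun f hf => ?_) hrow
    have hfg : f ≠ g := fun h => hgJ (h ▸ hf)
    have hfP : f ∉ P := Finset.disjoint_left.mp hJP hf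
    have h1 := SRCore.mass_add ν (insert f P) Q g
    have h2 := SRCore.mass_add ν P Q g
    rw [Finset.insert_comm] at h1
    rw [h1, h2]
    refine le_trans (le_of_eq ?_) (neg_le_abs _)
    ring
  · -- everything vanishes
    have hz : ∀ A B, P ⊆ A → Q ⊆ B → M.m A B = 0 := by
      intro A B hA hB
      apply m_eq_zero_of_not_disjoint M hM
      intro hdis
      exact hd (Finset.disjoint_of_subset_left hA (Finset.disjoint_of_subset_right hB hdis))
    rw [Finset.sum_eq_zero]
    · exact mul_nonneg (M.nonneg _ _) (M.nonneg _ _)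
    · intro f _
      rw [hz (insert f P) Q (Finset.subset_insert _ _) subset_rfl]
      rw [hz P Q subset_rfl subset_rfl]
      ring

end Crest.Agent.SRC
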